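import Vale.Agent.P151.QP.Defs

/-!
# The quasi-triangle inequality for distinct large clusters

For an increasing property `A` of clusters, `D` the event that `x`, `y` are in distinct clusters
with property `A`, and `z` any vertex: `P (D) * P (z is in a cluster with A) ≤ 11 * P (D and z is in
a cluster with A)`.  The proof explores the cluster of `z` edge by edge.
-/

set_option autoImplicit false
set_option linter.unusedSectionVars false

open Finset SimpleGraph

namespace Vale.Agent.P151.TC.H918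

open Vale.Agent.P151 Vale.Agent.P151.QP

variable {V : Type*} [DecidableEq V]

/-- The clusters of `x`, `y` are `X`, `Y`, distinct, with property `A`, without `z`. -/
noncomputable def rr (A : Finset V → Prop) (x y z : V) (X Y : Finset V)
    (S : Finset (Sym2 V)) : ℝ :=
  I1 (cl S x = X ∧ cl S y = Y ∧ A X ∧ A Y ∧ z ∉ X ∧ z ∉ Y ∧ X ≠ Y)

/-- The cluster of `y` is `Y`, with property `A`, without `z`; the cluster of `x` has property `A`
and contains `z`. -/
noncomputable def hh (A : Finset V → Prop) (x y z : V) (Y : Finset V)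
    (S : Finset (Sym2 V)) : ℝ :=
  I1 (cl S y = Y ∧ A Y ∧ z ∉ Y ∧ A (cl S x) ∧ z ∈ cl S x)

/-- The cluster of `z` has property `A`. -/
noncomputable def ll (A : Finset V → Prop) (z : V) (S : Finset (Sym2 V)) : ℝ := I1 (A (cl S z))

/-- Expectation given that the edges of `T` are open and the edges of `Λ` are not revealed. -/
noncomputable def Es (p : ℝ) (Λ T : Finset (Sym2 V)) (f : Finset (Sym2 V) → ℝ) : ℝ :=
  Ex p Λ (fun S => f (S ∪ T))

lemma Es_split (p : ℝ) {e : Sym2 V} {Λ : Finset (Sym2 V)} (he : e ∉ Λ) (T : Finset (Sym2 V))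
    (f : Finset (Sym2 V) → ℝ) :
    Es p (insert e Λ) T f = p * Es p Λ (insert e T) f + (1 - p) * Es p Λ T f := by
  unfold Es
  rw [Ex_insert p he]
  congr 2
  apply Ex_congr
  intro S _
  rw [Finset.insert_union, Finset.union_insert]

lemma Es_nonneg {p : ℝ} (h0 : 0 ≤ p) (h1 : p ≤ 1) (Λ T : Finset (Sym2 V))
    {f : Finset (Sym2 V) → ℝ} (h : ∀ S, 0 ≤ f S) : 0 ≤ Es p Λ T f :=
  Ex_nonneg h0 h1 fun S _ => h _

lemma rr_comm (A : Finset V → Prop) (x y z : V) (X Y : Finset V) :
    rr A x y z X Y = rr A y x z Y X := by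
  funext S
  unfold rr
  congr 1
  apply propext
  constructor
  · rintro ⟨h1, h2, h3, h4, h5, h6, h7⟩
    exact ⟨h2, h1, h4, h3, h6, h5, h7.symm⟩
  · rintro ⟨h1, h2, h3, h4, h5, h6, h7⟩
    exact ⟨h2, h1, h4, h3, h6, h5, h7.symm⟩

/-- An edge with both ends off a cluster may be opened. -/
lemma cl_insert_off {S : Finset (Sym2 V)} {a b x : V} {X : Finset V} (ha : a ∉ X) (hb : b ∉ X) :
    cl (insert s(a, b) S) x = X ↔ cl S x = X := by
  constructor
  · intro h
    rw [← h] at ha hb ⊢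
    rw [mem_cl] at ha hb
    ext v
    rw [mem_cl, mem_cl, Cn_insert]
    have h1 : ¬ Cn S x a := fun h' => ha (h'.mono (Finset.subset_insert _ _))
    have h2 : ¬ Cn S x b := fun h' => hb (h'.mono (Finset.subset_insert _ _))
    tauto
  · intro h
    rw [← h] at ha hb ⊢
    rw [mem_cl] at ha hb
    ext v
    rw [mem_cl, mem_cl, Cn_insert]
    tauto

section step

variable {A : Finset V → Prop} {x y z c u : V} {S : Finset (Sym2 V)}

/-- (P1) -/
lemma rr_off (hc : Cn S z c) {X Y : Finset V} (hX : u ∉ X) (hY : u ∉ Y) :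
    rr A x y z X Y (insert s(c, u) S) = rr A x y z X Y S := by
  have key : ∀ (v : V) (K : Finset V), u ∉ K → z ∉ K →
      (cl (insert s(c, u) S) v = K ↔ cl S v = K) := by
    intro v K hu hz
    constructor
    · intro h
      have hcK : c ∉ K := by
        rw [← h, mem_cl] at hz ⊢
        exact fun h' => hz (h'.trans (hc.symm.mono (Finset.subset_insert _ _)))
      exact (cl_insert_off hcK hu).1 h
    · intro h
      have hcK : c ∉ K := by
        rw [← h, mem_cl] at hz ⊢
        exact fun h' => hz (h'.trans hc.symm)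
      exact (cl_insert_off hcK hu).2 h
  unfold rr
  congr 1
  apply propext
  constructor
  · rintro ⟨h1, h2, h3, h4, h5, h6, h7⟩
    exact ⟨(key x X hX h5).1 h1, (key y Y hY h6).1 h2, h3, h4, h5, h6, h7⟩
  · rintro ⟨h1, h2, h3, h4, h5, h6, h7⟩
    exact ⟨(key x X hX h5).2 h1, (key y Y hY h6).2 h2, h3, h4, h5, h6, h7⟩

lemma no_touch (hc : Cn S z c) {v : V} {K : Finset V} (hu : u ∈ K) (hz : z ∉ K) :
    cl (insert s(c, u) S) v ≠ K := by
  intro h
  rw [← h, mem_cl] at hu hz
  apply hz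
  have h1 : Cn (insert s(c, u) S) c u := Cn_of_mem (Finset.mem_insert_self _ _)
  exact (hu.trans h1.symm).trans (hc.symm.mono (Finset.subset_insert _ _))

/-- (P2) -/
lemma rr_touch (hc : Cn S z c) {X Y : Finset V} (h : u ∈ X ∨ u ∈ Y) :
    rr A x y z X Y (insert s(c, u) S) = 0 := by
  unfold rr
  apply I1_false
  rintro ⟨h1, h2, -, -, h5, h6, -⟩
  rcases h with h | h
  · exact no_touch hc h h5 h1
  · exact no_touch hc h h6 h2

/-- (P6) -/
lemma rr_both {X Y : Finset V} (h : u ∈ X) (h' : u ∈ Y) : rr A x y z X Y S = 0 := by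
  unfold rr
  apply I1_false
  rintro ⟨h1, h2, -, -, -, -, h7⟩
  apply h7
  rw [← h1, mem_cl] at h
  rw [← h2, mem_cl] at h'
  rw [← h1, ← h2]
  exact cl_eq (h.trans h'.symm)

/-- (P3) -/
lemma hh_touch (hc : Cn S z c) {Y : Finset V} (h : u ∈ Y) :
    hh A x y z Y (insert s(c, u) S) = 0 := by
  unfold hh
  apply I1_false
  rintro ⟨h1, -, h3, -, -⟩
  exact no_touch hc h h3 h1

lemma ll_mono (hA : ∀ K L : Finset V, K ⊆ L → A K → A L) {T : Finset (Sym2 V)} (h : S ⊆ T) :
    ll A z S ≤ ll A z T :=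
  I1_mono fun h' => hA _ _ (cl_mono h z) h'

lemma sum_rr_le (𝒳 : Finset (Finset V)) (Y : Finset V) (Q : Finset V → Prop) [DecidablePred Q] :
    ∑ X ∈ 𝒳, (if Q X then rr A x y z X Y S else 0) ≤
      I1 (Q (cl S x) ∧ cl S y = Y ∧ A (cl S x) ∧ A Y ∧ z ∉ cl S x ∧ z ∉ Y ∧ cl S x ≠ Y) := by
  have h1 : ∑ X ∈ 𝒳, (if Q X then rr A x y z X Y S else 0) ≤
      ∑ X ∈ 𝒳, (if X = cl S x then
        I1 (Q (cl S x) ∧ cl S y = Y ∧ A (cl S x) ∧ A Y ∧ z ∉ cl S x ∧ z ∉ Y ∧ cl S x ≠ Y)
        else 0) := by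
    apply Finset.sum_le_sum
    intro X _
    by_cases hX : X = cl S x
    · rw [if_pos hX]
      subst hX
      split_ifs with hQ
      · unfold rr
        exact I1_mono fun h => ⟨hQ, h.2⟩
      · exact I1_nonneg _
    · rw [if_neg hX]
      split_ifs with hQ
      · apply le_of_eq
        unfold rr
        apply I1_false
        exact fun h => hX h.1.symm
      · exact le_rfl
  refine h1.trans ?_
  rw [Finset.sum_ite_eq']
  split_ifs
  · exact le_rfl
  · exact I1_nonneg _

/-- (P4) -/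
lemma hh_gain (hA : ∀ K L : Finset V, K ⊆ L → A K → A L) (hc : Cn S z c)
    (𝒳 : Finset (Finset V)) {Y : Finset V} (hY : u ∉ Y) :
    hh A x y z Y S + ∑ X ∈ 𝒳, (if u ∈ X then rr A x y z X Y S else 0) ≤
      hh A x y z Y (insert s(c, u) S) := by
  have h1 := sum_rr_le (A := A) (x := x) (y := y) (z := z) (S := S) 𝒳 Y (fun X => u ∈ X)
  refine (add_le_add le_rfl h1).trans ?_
  by_cases hb : cl S y = Y ∧ A Y ∧ z ∉ Y
  · obtain ⟨hy, hAY, hz⟩ := hb
    have hcY : c ∉ Y := by
      rw [← hy, mem_cl] at hz ⊢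
      exact fun h' => hz (h'.trans hc.symm)
    have hy' : cl (insert s(c, u) S) y = Y := (cl_insert_off hcY hY).2 hy
    have hsub : S ⊆ insert s(c, u) S := Finset.subset_insert _ _
    by_cases hx : z ∈ cl S x
    · rw [I1_false (P := u ∈ cl S x ∧ _) (fun h => h.2.2.2.2.1 hx), add_zero]
      unfold hh
      exact I1_mono fun h => ⟨hy', hAY, hz, hA _ _ (cl_mono hsub x) h.2.2.2.1,
        cl_mono hsub x h.2.2.2.2⟩
    · have e : hh A x y z Y S = 0 := by
        unfold hh
        exact I1_false fun h => hx h.2.2.2.2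
      rw [e, zero_add]
      unfold hh
      apply I1_mono
      rintro ⟨hux, -, hAx, -, -, -, -⟩
      refine ⟨hy', hAY, hz, hA _ _ (cl_mono hsub x) hAx, ?_⟩
      rw [mem_cl] at hux ⊢
      have h2 : Cn (insert s(c, u) S) c u := Cn_of_mem (Finset.mem_insert_self _ _)
      exact ((hux.mono hsub).trans h2.symm).trans (hc.symm.mono hsub)
  · have e : hh A x y z Y S = 0 := by
      unfold hh
      exact I1_false fun h => hb ⟨h.1, h.2.1, h.2.2.1⟩
    rw [e, zero_add, I1_false]
    · unfold hh; exact I1_nonneg _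
    · exact fun h => hb ⟨h.2.1, h.2.2.2.1, h.2.2.2.2.2.1⟩

end step

/-- The bound for the side of `Y`. -/
noncomputable def bnd (A : Finset V → Prop) (p : ℝ) (Λ T : Finset (Sym2 V)) (x y z : V)
    (𝒳 : Finset (Finset V)) (Y : Finset V) : ℝ :=
  5 * Es p Λ T (hh A x y z Y) - Es p Λ T (ll A z) * Es p Λ T (hh A x y z Y) +
    1 / 4 * (Es p Λ T (ll A z) * ∑ X ∈ 𝒳, Es p Λ T (rr A x y z X Y))

lemma rr_nonneg (A : Finset V → Prop) (x y z : V) (X Y : Finset V) (S : Finset (Sym2 V)) :
    0 ≤ rr A x y z X Y S := I1_nonneg _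
lemma hh_nonneg (A : Finset V → Prop) (x y z : V) (Y : Finset V) (S : Finset (Sym2 V)) :
    0 ≤ hh A x y z Y S := I1_nonneg _
lemma ll_nonneg (A : Finset V → Prop) (z : V) (S : Finset (Sym2 V)) : 0 ≤ ll A z S := I1_nonneg _
lemma ll_le_one (A : Finset V → Prop) (z : V) (S : Finset (Sym2 V)) : ll A z S ≤ 1 := I1_le_one _

/-- One step of the exploration, on one side. -/
lemma side_step {A : Finset V → Prop} (hA : ∀ K L : Finset V, K ⊆ L → A K → A L) {p : ℝ}
    (h0 : 0 ≤ p) (h1 : p ≤ 1) {x y z c u : V} {Λ T : Finset (Sym2 V)} (he : s(c, u) ∉ Λ)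
    (hc : Cn T z c) (𝒳 : Finset (Finset V)) (Y : Finset V) (wo wc : Finset V → ℝ)
    (hwo0 : ∀ X, 0 ≤ wo X) (hwc0 : ∀ X, 0 ≤ wc X)
    (hwo : ∑ X ∈ 𝒳, wo X ≤ bnd A p Λ (insert s(c, u) T) x y z 𝒳 Y)
    (hwc : ∑ X ∈ 𝒳, wc X ≤ bnd A p Λ T x y z 𝒳 Y) :
    ∃ w : Finset V → ℝ, (∀ X, 0 ≤ w X) ∧
      ∑ X ∈ 𝒳, w X ≤ bnd A p (insert s(c, u) Λ) T x y z 𝒳 Y ∧
      ∀ X, (Es p (insert s(c, u) Λ) T (rr A x y z X Y) ≤ w X) ∨
        (if u ∈ X then (Es p (insert s(c, u) Λ) T (ll A z) - Es p Λ T (ll A z)) *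
          Es p (insert s(c, u) Λ) T (rr A x y z X Y) else 0) + p * wo X + (1 - p) * wc X ≤ w X := by
  have hcS : ∀ S : Finset (Sym2 V), Cn (S ∪ T) z c := fun S => hc.mono Finset.subset_union_right
  have hins : ∀ S : Finset (Sym2 V), S ∪ insert s(c, u) T = insert s(c, u) (S ∪ T) :=
    fun S => Finset.union_insert _ _ _
  have hl := Es_split p he T (ll A z)
  have hh' := Es_split p he T (hh A x y z Y)
  have hr := fun X => Es_split p he T (rr A x y z X Y)
  have q0 : 0 ≤ 1 - p := by linarith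
  -- monotonicity of `l`
  have hl_mono : Es p Λ T (ll A z) ≤ Es p Λ (insert s(c, u) T) (ll A z) := by
    apply Ex_mono h0 h1
    intro S _
    rw [hins]
    exact ll_mono hA (Finset.subset_insert _ _)
  have hlc0 : 0 ≤ Es p Λ T (ll A z) := Es_nonneg h0 h1 _ _ (ll_nonneg A z)
  have hlo1 : Es p Λ (insert s(c, u) T) (ll A z) ≤ 1 :=
    Ex_le_const h0 h1 fun S _ => ll_le_one A z _
  have hhc0 : 0 ≤ Es p Λ T (hh A x y z Y) := Es_nonneg h0 h1 _ _ (hh_nonneg A x y z Y)
  have hho0 : 0 ≤ Es p Λ (insert s(c, u) T) (hh A x y z Y) :=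
    Es_nonneg h0 h1 _ _ (hh_nonneg A x y z Y)
  have hrc0 : ∀ X, 0 ≤ Es p Λ T (rr A x y z X Y) :=
    fun X => Es_nonneg h0 h1 _ _ (rr_nonneg A x y z X Y)
  have hro0 : ∀ X, 0 ≤ Es p Λ (insert s(c, u) T) (rr A x y z X Y) :=
    fun X => Es_nonneg h0 h1 _ _ (rr_nonneg A x y z X Y)
  have hRsum : ∑ X ∈ 𝒳, Es p (insert s(c, u) Λ) T (rr A x y z X Y) =
      p * ∑ X ∈ 𝒳, Es p Λ (insert s(c, u) T) (rr A x y z X Y) +
        (1 - p) * ∑ X ∈ 𝒳, Es p Λ T (rr A x y z X Y) := by
    rw [Finset.mul_sum, Finset.mul_sum, ← Finset.sum_add_distrib]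
    exact Finset.sum_congr rfl fun X _ => hr X
  have hRc0 : 0 ≤ ∑ X ∈ 𝒳, Es p Λ T (rr A x y z X Y) := Finset.sum_nonneg fun X _ => hrc0 X
  have hRo0 : 0 ≤ ∑ X ∈ 𝒳, Es p Λ (insert s(c, u) T) (rr A x y z X Y) :=
    Finset.sum_nonneg fun X _ => hro0 X
  by_cases hstop : ∑ X ∈ 𝒳, Es p (insert s(c, u) Λ) T (rr A x y z X Y) ≤
      4 * Es p (insert s(c, u) Λ) T (hh A x y z Y)
  · refine ⟨fun X => Es p (insert s(c, u) Λ) T (rr A x y z X Y), fun X => ?_, ?_,
      fun X => Or.inl le_rfl⟩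
    · exact Es_nonneg h0 h1 _ _ (rr_nonneg A x y z X Y)
    · unfold bnd
      have e1 : Es p (insert s(c, u) Λ) T (ll A z) ≤ 1 :=
        Ex_le_const h0 h1 fun S _ => ll_le_one A z _
      have e2 : 0 ≤ Es p (insert s(c, u) Λ) T (ll A z) := Es_nonneg h0 h1 _ _ (ll_nonneg A z)
      have e3 : 0 ≤ Es p (insert s(c, u) Λ) T (hh A x y z Y) :=
        Es_nonneg h0 h1 _ _ (hh_nonneg A x y z Y)
      have e4 : 0 ≤ ∑ X ∈ 𝒳, Es p (insert s(c, u) Λ) T (rr A x y z X Y) :=
        Finset.sum_nonneg fun X _ => Es_nonneg h0 h1 _ _ (rr_nonneg A x y z X Y)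
      have e5 := mul_le_mul_of_nonneg_right e1 e3
      have e6 := mul_nonneg e2 e4
      linarith
  · push Not at hstop
    set a : ℝ := Es p (insert s(c, u) Λ) T (ll A z) - Es p Λ T (ll A z) with ha
    have ha' : a = p * (Es p Λ (insert s(c, u) T) (ll A z) - Es p Λ T (ll A z)) := by
      rw [ha, hl]; ring
    have ha0 : 0 ≤ a := by
      rw [ha']
      exact mul_nonneg h0 (sub_nonneg.2 hl_mono)
    refine ⟨fun X => (if u ∈ X then a * Es p (insert s(c, u) Λ) T (rr A x y z X Y) else 0) +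
      p * wo X + (1 - p) * wc X, fun X => ?_, ?_, fun X => Or.inr le_rfl⟩
    · have e1 : 0 ≤ (if u ∈ X then a * Es p (insert s(c, u) Λ) T (rr A x y z X Y) else 0) := by
        split_ifs
        · exact mul_nonneg ha0 (Es_nonneg h0 h1 _ _ (rr_nonneg A x y z X Y))
        · exact le_rfl
      have e2 := mul_nonneg h0 (hwo0 X)
      have e3 := mul_nonneg q0 (hwc0 X)
      linarith
    · rw [Finset.sum_add_distrib, Finset.sum_add_distrib, ← Finset.mul_sum, ← Finset.mul_sum]
      have e2 := mul_le_mul_of_nonneg_left hwo h0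
      have e3 := mul_le_mul_of_nonneg_left hwc q0
      by_cases hY : u ∈ Y
      · -- a touch of `Y`
        have z1 : ∀ X, Es p Λ (insert s(c, u) T) (rr A x y z X Y) = 0 := by
          intro X
          unfold Es
          rw [Ex_congr p (G := fun _ => (0 : ℝ))]
          · simp
          · intro S _
            rw [hins]
            exact rr_touch (hcS S) (Or.inr hY)
        have z2 : Es p Λ (insert s(c, u) T) (hh A x y z Y) = 0 := by
          unfold Es
          rw [Ex_congr p (G := fun _ => (0 : ℝ))]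
          · simp
          · intro S _
            rw [hins]
            exact hh_touch (hcS S) hY
        have z3 : ∀ X, (if u ∈ X then a * Es p (insert s(c, u) Λ) T (rr A x y z X Y) else 0) =
            0 := by
          intro X
          split_ifs with hX
          · have : Es p (insert s(c, u) Λ) T (rr A x y z X Y) = 0 := by
              unfold Es
              rw [Ex_congr p (G := fun _ => (0 : ℝ))]
              · simp
              · intro S _
                exact rr_both hX hY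
            rw [this, mul_zero]
          · rfl
        rw [Finset.sum_congr rfl (fun X _ => z3 X), Finset.sum_const_zero]
        unfold bnd at e2 e3 ⊢
        rw [z2] at hh'
        rw [z2, Finset.sum_congr rfl (fun X _ => z1 X), Finset.sum_const_zero] at e2
        rw [Finset.sum_congr rfl (fun X _ => z1 X), Finset.sum_const_zero] at hRsum
        have e4 : a * (4 * Es p (insert s(c, u) Λ) T (hh A x y z Y)) ≤
            a * ∑ X ∈ 𝒳, Es p (insert s(c, u) Λ) T (rr A x y z X Y) :=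
          mul_le_mul_of_nonneg_left hstop.le ha0
        have e5 : Es p (insert s(c, u) Λ) T (ll A z) = Es p Λ T (ll A z) + a := by
          rw [ha]; ring
        rw [hRsum, hh'] at e4
        rw [e5, hRsum, hh']
        nlinarith only [e2, e3, e4]
      · -- no touch of `Y`
        have g1 : ∑ X ∈ 𝒳, (if u ∈ X then a * Es p (insert s(c, u) Λ) T (rr A x y z X Y)
            else 0) ≤ a * ((1 - p) * (Es p Λ (insert s(c, u) T) (hh A x y z Y) -
              Es p Λ T (hh A x y z Y))) := by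
          have g2 : ∀ X, (if u ∈ X then a * Es p (insert s(c, u) Λ) T (rr A x y z X Y)
              else 0) = a * ((1 - p) * Es p Λ T (fun S => if u ∈ X then rr A x y z X Y S
                else 0)) := by
            intro X
            split_ifs with hX
            · have z1 : Es p Λ (insert s(c, u) T) (rr A x y z X Y) = 0 := by
                unfold Es
                rw [Ex_congr p (G := fun _ => (0 : ℝ))]
                · simp
                · intro S _
                  rw [hins]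
                  exact rr_touch (hcS S) (Or.inl hX)
              rw [hr X, z1]
              ring
            · unfold Es
              simp
          rw [Finset.sum_congr rfl (fun X _ => g2 X), ← Finset.mul_sum, ← Finset.mul_sum]
          apply mul_le_mul_of_nonneg_left _ ha0
          apply mul_le_mul_of_nonneg_left _ q0
          rw [le_sub_iff_add_le, add_comm]
          unfold Es
          rw [← Ex_sum, ← Ex_add]
          apply Ex_mono h0 h1
          intro S _
          rw [hins]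
          exact hh_gain hA (hcS S) 𝒳 hY
        have g3 : ∑ X ∈ 𝒳, Es p Λ (insert s(c, u) T) (rr A x y z X Y) ≤
            ∑ X ∈ 𝒳, Es p Λ T (rr A x y z X Y) := by
          apply Finset.sum_le_sum
          intro X _
          apply Ex_mono h0 h1
          intro S _
          rw [hins]
          by_cases hX : u ∈ X
          · rw [rr_touch (hcS S) (Or.inl hX)]
            exact rr_nonneg _ _ _ _ _ _ _
          · rw [rr_off (hcS S) hX hY]
        unfold bnd at e2 e3 ⊢
        rw [ha'] at g1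
        have g4 : 0 ≤ p * (1 - p) * ((Es p Λ (insert s(c, u) T) (ll A z) - Es p Λ T (ll A z)) *
            (∑ X ∈ 𝒳, Es p Λ T (rr A x y z X Y) -
              ∑ X ∈ 𝒳, Es p Λ (insert s(c, u) T) (rr A x y z X Y))) :=
          mul_nonneg (mul_nonneg h0 q0) (mul_nonneg (sub_nonneg.2 hl_mono) (sub_nonneg.2 g3))
        rw [hl, hRsum, hh']
        rw [ha'] at *
        nlinarith only [g1, e2, e3, g4]

/-- The exploration of the cluster of `z`. -/
theorem explore {A : Finset V → Prop} (hA : ∀ K L : Finset V, K ⊆ L → A K → A L) {p : ℝ}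
    (h0 : 0 ≤ p) (h1 : p ≤ 1) (x y z : V) (𝒳 𝒴 : Finset (Finset V)) (Λ : Finset (Sym2 V)) :
    ∀ T : Finset (Sym2 V), ∃ w w' : Finset V → Finset V → ℝ,
      (∀ X Y, 0 ≤ w X Y) ∧ (∀ X Y, 0 ≤ w' X Y) ∧
      (∀ Y, ∑ X ∈ 𝒳, w X Y ≤ bnd A p Λ T x y z 𝒳 Y) ∧
      (∀ X, ∑ Y ∈ 𝒴, w' X Y ≤ bnd A p Λ T y x z 𝒴 X) ∧
      ∀ X Y, Es p Λ T (ll A z) * Es p Λ T (rr A x y z X Y) ≤
        Es p Λ T (fun S => rr A x y z X Y S * ll A z S) + w X Y + w' X Y := by
  have q0 : 0 ≤ 1 - p := by linarith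
  have hl1 : ∀ Λ T : Finset (Sym2 V), Es p Λ T (ll A z) ≤ 1 := fun Λ T =>
    Ex_le_const h0 h1 fun S _ => ll_le_one A z _
  have hl0 : ∀ Λ T : Finset (Sym2 V), 0 ≤ Es p Λ T (ll A z) := fun Λ T =>
    Es_nonneg h0 h1 _ _ (ll_nonneg A z)
  have hr0 : ∀ (Λ T : Finset (Sym2 V)) (x y : V) (X Y), 0 ≤ Es p Λ T (rr A x y z X Y) :=
    fun Λ T x y X Y => Es_nonneg h0 h1 _ _ (rr_nonneg A x y z X Y)
  have hh0 : ∀ (Λ T : Finset (Sym2 V)) (x y : V) (Y), 0 ≤ Es p Λ T (hh A x y z Y) :=
    fun Λ T x y Y => Es_nonneg h0 h1 _ _ (hh_nonneg A x y z Y)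
  have he0 : ∀ (Λ T : Finset (Sym2 V)) (X Y),
      0 ≤ Es p Λ T (fun S => rr A x y z X Y S * ll A z S) :=
    fun Λ T X Y => Es_nonneg h0 h1 _ _ fun S => mul_nonneg (rr_nonneg A x y z X Y S)
      (ll_nonneg A z S)
  induction Λ using Finset.strongInduction with
  | H Λ ih =>
    intro T
    by_cases hb : ∃ c u, s(c, u) ∈ Λ ∧ Cn T z c ∧ ¬ Cn T z u
    · obtain ⟨c, u, he, hc, hu⟩ := hb
      have heΛ : s(c, u) ∉ Λ.erase s(c, u) := Finset.notMem_erase _ _
      have hins : insert s(c, u) (Λ.erase s(c, u)) = Λ := Finset.insert_erase he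
      obtain ⟨wo, wo', wo1, wo1', wo2, wo2', wo3⟩ :=
        ih (Λ.erase s(c, u)) (Finset.erase_ssubset he) (insert s(c, u) T)
      obtain ⟨wc, wc', wc1, wc1', wc2, wc2', wc3⟩ :=
        ih (Λ.erase s(c, u)) (Finset.erase_ssubset he) T
      have hY := fun Y => side_step hA h0 h1 (x := x) (y := y) (z := z) heΛ hc 𝒳 Y
        (fun X => wo X Y) (fun X => wc X Y) (fun X => wo1 X Y) (fun X => wc1 X Y) (wo2 Y) (wc2 Y)
      have hX := fun X => side_step hA h0 h1 (x := y) (y := x) (z := z) heΛ hc 𝒴 X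
        (fun Y => wo' X Y) (fun Y => wc' X Y) (fun Y => wo1' X Y) (fun Y => wc1' X Y)
        (wo2' X) (wc2' X)
      simp only [hins] at hY hX
      choose w w1 w2 w3 using hY
      choose w' w1' w2' w3' using hX
      refine ⟨fun X Y => w Y X, fun X Y => w' X Y, fun X Y => w1 Y X, fun X Y => w1' X Y,
        w2, w2', fun X Y => ?_⟩
      have f1 := w3 Y X
      have f2 := w3' X Y
      rw [rr_comm A y x z Y X] at f2
      have g1 := w1 Y X
      have g2 := w1' X Y
      have f3 := wo3 X Y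
      have f4 := wc3 X Y
      have o1 := wo1 X Y
      have o2 := wo1' X Y
      have hl := Es_split p heΛ T (ll A z)
      have hr := Es_split p heΛ T (rr A x y z X Y)
      have hee := Es_split p heΛ T (fun S => rr A x y z X Y S * ll A z S)
      rw [hins] at hl hr hee
      have r0 := hr0 Λ T x y X Y
      have e0 := he0 Λ T X Y
      have eo0 := he0 (Λ.erase s(c, u)) (insert s(c, u) T) X Y
      have lr : Es p Λ T (ll A z) * Es p Λ T (rr A x y z X Y) ≤ Es p Λ T (rr A x y z X Y) :=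
        mul_le_of_le_one_left r0 (hl1 Λ T)
      rcases f1 with f1 | f1
      · linarith
      rcases f2 with f2 | f2
      · linarith
      have m3 := mul_le_mul_of_nonneg_left f3 h0
      have m4 := mul_le_mul_of_nonneg_left f4 q0
      have mo1 := mul_nonneg h0 o1
      have mo2 := mul_nonneg h0 o2
      have meo := mul_nonneg h0 eo0
      by_cases ht : u ∈ X ∨ u ∈ Y
      · have z1 : Es p (Λ.erase s(c, u)) (insert s(c, u) T) (rr A x y z X Y) = 0 := by
          unfold Es
          rw [Ex_congr p (G := fun _ => (0 : ℝ))]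
          · simp
          · intro S _
            rw [Finset.union_insert]
            exact rr_touch (hc.mono Finset.subset_union_right) ht
        rw [z1, mul_zero, zero_add] at hr
        have key : Es p Λ T (ll A z) * Es p Λ T (rr A x y z X Y) =
            (Es p Λ T (ll A z) - Es p (Λ.erase s(c, u)) T (ll A z)) *
              Es p Λ T (rr A x y z X Y) + (1 - p) * (Es p (Λ.erase s(c, u)) T (ll A z) *
                Es p (Λ.erase s(c, u)) T (rr A x y z X Y)) := by
          rw [hr]; ring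
        have ha0 : 0 ≤ (Es p Λ T (ll A z) - Es p (Λ.erase s(c, u)) T (ll A z)) *
              Es p Λ T (rr A x y z X Y) := by
          apply mul_nonneg _ r0
          rw [hl]
          have hl_mono : Es p (Λ.erase s(c, u)) T (ll A z) ≤
              Es p (Λ.erase s(c, u)) (insert s(c, u) T) (ll A z) := by
            apply Ex_mono h0 h1
            intro S _
            rw [Finset.union_insert]
            exact ll_mono hA (Finset.subset_insert _ _)
          nlinarith only [h0, hl_mono]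
        rw [key]
        by_cases hX : u ∈ X
        · rw [if_pos hX] at f1
          have f2' : p * wo' X Y + (1 - p) * wc' X Y ≤ w' X Y := by
            refine le_trans ?_ f2
            split_ifs
            · linarith
            · linarith
          linarith
        · have hY : u ∈ Y := ht.resolve_left hX
          rw [if_pos hY] at f2
          rw [if_neg hX] at f1
          linarith
      · push Not at ht
        rw [if_neg ht.1] at f1
        rw [if_neg ht.2] at f2
        have z1 : Es p (Λ.erase s(c, u)) (insert s(c, u) T) (rr A x y z X Y) =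
            Es p (Λ.erase s(c, u)) T (rr A x y z X Y) := by
          unfold Es
          apply Ex_congr
          intro S _
          rw [Finset.union_insert]
          exact rr_off (hc.mono Finset.subset_union_right) ht.1 ht.2
        rw [z1] at hr m3
        have key : Es p Λ T (ll A z) * Es p Λ T (rr A x y z X Y) =
            p * (Es p (Λ.erase s(c, u)) (insert s(c, u) T) (ll A z) *
              Es p (Λ.erase s(c, u)) T (rr A x y z X Y)) +
            (1 - p) * (Es p (Λ.erase s(c, u)) T (ll A z) *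
                Es p (Λ.erase s(c, u)) T (rr A x y z X Y)) := by
          rw [hr, hl]; ring
        rw [key]
        linarith
    · push Not at hb
      have hcl : ∀ S ⊆ Λ, cl (S ∪ T) z = cl T z := by
        intro S hS
        apply le_antisymm
        · intro v hv
          rw [mem_cl] at hv ⊢
          refine Cn_closed (S := S ∪ T) (A := {v | Cn T z v}) ?_ (Cn.refl T z) hv
          intro a ha b hab
          rw [Finset.mem_union] at hab
          rcases hab with hab | hab
          · exact hb a b (hS hab) ha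
          · exact Cn.trans ha (Cn_of_mem hab)
        · exact cl_mono Finset.subset_union_right z
      have hll : ∀ S ⊆ Λ, ll A z (S ∪ T) = ll A z T := by
        intro S hS
        unfold ll
        rw [hcl S hS]
      have hl : Es p Λ T (ll A z) = ll A z T := by
        unfold Es
        rw [Ex_congr p (G := fun _ => ll A z T) hll]
        simp
      have hbnd : ∀ (x y : V) (𝒳 : Finset (Finset V)) (Y : Finset V),
          0 ≤ bnd A p Λ T x y z 𝒳 Y := by
        intro x y 𝒳 Y
        unfold bnd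
        have e1 := mul_le_of_le_one_left (hh0 Λ T x y Y) (hl1 Λ T)
        have e2 := hh0 Λ T x y Y
        have e3 : 0 ≤ ∑ X ∈ 𝒳, Es p Λ T (rr A x y z X Y) :=
          Finset.sum_nonneg fun X _ => hr0 Λ T x y X Y
        have e4 := mul_nonneg (hl0 Λ T) e3
        linarith
      refine ⟨fun _ _ => 0, fun _ _ => 0, fun _ _ => le_rfl, fun _ _ => le_rfl, fun Y => ?_,
        fun X => ?_, fun X Y => ?_⟩
      · rw [Finset.sum_const_zero]; exact hbnd _ _ _ _
      · rw [Finset.sum_const_zero]; exact hbnd _ _ _ _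
      · apply le_of_eq
        rw [add_zero, add_zero, hl, mul_comm]
        unfold Es
        rw [← Ex_mul_const]
        apply Ex_congr
        intro S hS
        change _ = rr A x y z X Y (S ∪ T) * ll A z (S ∪ T)
        rw [hll S hS]

/-- **The quasi-triangle inequality**, for every increasing property of clusters. -/
theorem tc_gen {A : Finset V → Prop} (hA : ∀ K L : Finset V, K ⊆ L → A K → A L) {p : ℝ}
    (h0 : 0 ≤ p) (h1 : p ≤ 1) (Λ : Finset (Sym2 V)) (x y z : V) :
    Ex p Λ (fun S => I1 (¬ Cn S x y ∧ A (cl S x) ∧ A (cl S y))) * Ex p Λ (ll A z) ≤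
      11 * Ex p Λ (fun S => I1 (¬ Cn S x y ∧ A (cl S x) ∧ A (cl S y)) * ll A z S) := by
  classical
  set 𝒳 : Finset (Finset V) := Λ.powerset.image (fun S => cl S x) with h𝒳
  set 𝒴 : Finset (Finset V) := Λ.powerset.image (fun S => cl S y) with h𝒴
  obtain ⟨w, w', w1, w1', w2, w2', w3⟩ := explore hA h0 h1 x y z 𝒳 𝒴 Λ ∅
  have hEs : ∀ f : Finset (Sym2 V) → ℝ, Es p Λ ∅ f = Ex p Λ f := by
    intro f
    unfold Es
    apply Ex_congr
    intro S _
    rw [Finset.union_empty]
  simp only [hEs] at w3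
  unfold bnd at w2 w2'
  simp only [hEs] at w2 w2'
  set l : ℝ := Ex p Λ (ll A z) with hl
  have hl0 : 0 ≤ l := Ex_nonneg h0 h1 fun S _ => ll_nonneg A z S
  have hl1 : l ≤ 1 := Ex_le_const h0 h1 fun S _ => ll_le_one A z S
  -- the sums over the pairs of clusters
  set R : ℝ := ∑ X ∈ 𝒳, ∑ Y ∈ 𝒴, Ex p Λ (rr A x y z X Y) with hR
  set EE : ℝ := ∑ X ∈ 𝒳, ∑ Y ∈ 𝒴, Ex p Λ (fun S => rr A x y z X Y S * ll A z S) with hEE
  set HY : ℝ := ∑ Y ∈ 𝒴, Ex p Λ (hh A x y z Y) with hHY
  set HX : ℝ := ∑ X ∈ 𝒳, Ex p Λ (hh A y x z X) with hHX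
  have hR' : R = ∑ Y ∈ 𝒴, ∑ X ∈ 𝒳, Ex p Λ (rr A x y z X Y) := by
    rw [hR, Finset.sum_comm]
  have s1 : ∑ Y ∈ 𝒴, ∑ X ∈ 𝒳, w X Y ≤ 5 * HY - l * HY + 1 / 4 * (l * R) := by
    have : ∑ Y ∈ 𝒴, ∑ X ∈ 𝒳, w X Y ≤ ∑ Y ∈ 𝒴, (5 * Ex p Λ (hh A x y z Y) -
        l * Ex p Λ (hh A x y z Y) + 1 / 4 * (l * ∑ X ∈ 𝒳, Ex p Λ (rr A x y z X Y))) :=
      Finset.sum_le_sum fun Y _ => w2 Y
    rw [Finset.sum_add_distrib, Finset.sum_sub_distrib, ← Finset.mul_sum, ← Finset.mul_sum,
      ← Finset.mul_sum, ← Finset.mul_sum, ← hR', ← hHY] at this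
    exact this
  have s2 : ∑ X ∈ 𝒳, ∑ Y ∈ 𝒴, w' X Y ≤ 5 * HX - l * HX + 1 / 4 * (l * R) := by
    have : ∑ X ∈ 𝒳, ∑ Y ∈ 𝒴, w' X Y ≤ ∑ X ∈ 𝒳, (5 * Ex p Λ (hh A y x z X) -
        l * Ex p Λ (hh A y x z X) + 1 / 4 * (l * ∑ Y ∈ 𝒴, Ex p Λ (rr A y x z Y X))) :=
      Finset.sum_le_sum fun X _ => w2' X
    simp only [rr_comm A y x z _ _] at this
    rw [Finset.sum_add_distrib, Finset.sum_sub_distrib, ← Finset.mul_sum, ← Finset.mul_sum,
      ← Finset.mul_sum, ← Finset.mul_sum, ← hR, ← hHX] at this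
    exact this
  have s3 : l * R ≤ EE + ∑ Y ∈ 𝒴, ∑ X ∈ 𝒳, w X Y + ∑ X ∈ 𝒳, ∑ Y ∈ 𝒴, w' X Y := by
    have : ∑ X ∈ 𝒳, ∑ Y ∈ 𝒴, l * Ex p Λ (rr A x y z X Y) ≤
        ∑ X ∈ 𝒳, ∑ Y ∈ 𝒴, (Ex p Λ (fun S => rr A x y z X Y S * ll A z S) + w X Y + w' X Y) :=
      Finset.sum_le_sum fun X _ => Finset.sum_le_sum fun Y _ => w3 X Y
    simp only [Finset.sum_add_distrib, ← Finset.mul_sum] at this
    rw [Finset.sum_comm (s := 𝒴) (t := 𝒳)]
    exact this
  -- the events
  set DI : Finset (Sym2 V) → ℝ := fun S => I1 (¬ Cn S x y ∧ A (cl S x) ∧ A (cl S y)) with hDI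
  set RI : Finset (Sym2 V) → ℝ := fun S => I1 (¬ Cn S x y ∧ A (cl S x) ∧ A (cl S y) ∧
    z ∉ cl S x ∧ z ∉ cl S y) with hRI
  set AI : Finset (Sym2 V) → ℝ := fun S => I1 (A (cl S x) ∧ z ∉ cl S x ∧ A (cl S y) ∧
    z ∈ cl S y) with hAI
  set BI : Finset (Sym2 V) → ℝ := fun S => I1 (A (cl S y) ∧ z ∉ cl S y ∧ A (cl S x) ∧
    z ∈ cl S x) with hBI
  have t1 : Ex p Λ RI ≤ R := by
    rw [hR]
    simp only [← Ex_sum]
    apply Ex_mono h0 h1
    intro S hS
    have m1 : cl S x ∈ 𝒳 := Finset.mem_image_of_mem _ (Finset.mem_powerset.2 hS)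
    have m2 : cl S y ∈ 𝒴 := Finset.mem_image_of_mem _ (Finset.mem_powerset.2 hS)
    have m3 : RI S ≤ rr A x y z (cl S x) (cl S y) S := by
      apply I1_mono
      rintro ⟨a1, a2, a3, a4, a5⟩
      refine ⟨rfl, rfl, a2, a3, a4, a5, fun h => a1 ?_⟩
      have := self_mem_cl S y
      rw [← h, mem_cl] at this
      exact this
    refine m3.trans ?_
    refine (Finset.single_le_sum (f := fun Y => rr A x y z (cl S x) Y S)
      (fun Y _ => rr_nonneg _ _ _ _ _ _ _) m2).trans ?_
    exact Finset.single_le_sum (f := fun X => ∑ Y ∈ 𝒴, rr A x y z X Y S)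
      (fun X _ => Finset.sum_nonneg fun Y _ => rr_nonneg _ _ _ _ _ _ _) m1
  have t2 : EE ≤ Ex p Λ (fun S => RI S * ll A z S) := by
    rw [hEE]
    simp only [← Ex_sum]
    apply Ex_mono h0 h1
    intro S _
    simp only [← Finset.sum_mul]
    apply mul_le_mul_of_nonneg_right _ (ll_nonneg A z S)
    rw [Finset.sum_comm]
    have m1 : ∀ Y ∈ 𝒴, ∑ X ∈ 𝒳, rr A x y z X Y S ≤ if Y = cl S y then RI S else 0 := by
      intro Y _
      have := sum_rr_le (A := A) (x := x) (y := y) (z := z) (S := S) 𝒳 Y (fun _ => True)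
      simp only [if_true, true_and] at this
      refine this.trans ?_
      split_ifs with hY
      · rw [hY]
        apply I1_mono
        rintro ⟨-, a2, a3, a4, a5, a6⟩
        exact ⟨fun h => a6 (cl_eq h), a2, a3, a4, a5⟩
      · apply le_of_eq
        apply I1_false
        exact fun h => hY h.1.symm
    refine (Finset.sum_le_sum m1).trans ?_
    rw [Finset.sum_ite_eq']
    split_ifs
    · exact le_rfl
    · exact I1_nonneg _
  have t3 : ∀ (a b : V) (𝒵 : Finset (Finset V)), ∑ Y ∈ 𝒵, Ex p Λ (hh A a b z Y) ≤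
      Ex p Λ (fun S => I1 (A (cl S b) ∧ z ∉ cl S b ∧ A (cl S a) ∧ z ∈ cl S a)) := by
    intro a b 𝒵
    rw [← Ex_sum]
    apply Ex_mono h0 h1
    intro S _
    have m1 : ∀ Y ∈ 𝒵, hh A a b z Y S ≤ if Y = cl S b then
        I1 (A (cl S b) ∧ z ∉ cl S b ∧ A (cl S a) ∧ z ∈ cl S a) else 0 := by
      intro Y _
      split_ifs with hY
      · rw [hY]
        apply I1_mono
        rintro ⟨-, a2, a3, a4, a5⟩
        exact ⟨a2, a3, a4, a5⟩
      · apply le_of_eq
        apply I1_false
        exact fun h => hY h.1.symm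
    refine (Finset.sum_le_sum m1).trans ?_
    rw [Finset.sum_ite_eq']
    split_ifs
    · exact le_rfl
    · exact I1_nonneg _
  have t4 : HY ≤ Ex p Λ BI := t3 x y 𝒴
  have t5 : HX ≤ Ex p Λ AI := t3 y x 𝒳
  have t6 : Ex p Λ DI ≤ Ex p Λ RI + Ex p Λ AI + Ex p Λ BI := by
    rw [← Ex_add, ← Ex_add]
    apply Ex_mono h0 h1
    intro S _
    by_cases hD : ¬ Cn S x y ∧ A (cl S x) ∧ A (cl S y)
    · have b1 : DI S ≤ 1 := I1_le_one _
      have b2 : 0 ≤ RI S := I1_nonneg _
      have b3 : 0 ≤ AI S := I1_nonneg _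
      have b4 : 0 ≤ BI S := I1_nonneg _
      by_cases hzx : z ∈ cl S x
      · have hzy : z ∉ cl S y := by
          intro h
          rw [mem_cl] at h hzx
          exact hD.1 (hzx.trans h.symm)
        have : BI S = 1 := I1_true ⟨hD.2.2, hzy, hD.2.1, hzx⟩
        linarith
      · by_cases hzy : z ∈ cl S y
        · have : AI S = 1 := I1_true ⟨hD.2.1, hzx, hD.2.2, hzy⟩
          linarith
        · have : RI S = 1 := I1_true ⟨hD.1, hD.2.1, hD.2.2, hzx, hzy⟩
          linarith
    · have b1 : DI S = 0 := I1_false hD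
      have b2 : 0 ≤ RI S := I1_nonneg _
      have b3 : 0 ≤ AI S := I1_nonneg _
      have b4 : 0 ≤ BI S := I1_nonneg _
      linarith
  have t7 : Ex p Λ (fun S => RI S * ll A z S) + Ex p Λ AI + Ex p Λ BI ≤
      Ex p Λ (fun S => DI S * ll A z S) := by
    rw [← Ex_add, ← Ex_add]
    apply Ex_mono h0 h1
    intro S _
    have c0 : ll A z S ≤ 1 := ll_le_one A z S
    have c1 : 0 ≤ ll A z S := ll_nonneg A z S
    by_cases hzx : z ∈ cl S x
    · have e1 : RI S = 0 := I1_false fun h => h.2.2.2.1 hzx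
      have e2 : AI S = 0 := I1_false fun h => h.2.1 hzx
      rw [e1, e2, zero_mul, zero_add, zero_add]
      have hcz : cl S z = cl S x := (cl_eq (mem_cl.1 hzx)).symm
      by_cases hB : A (cl S y) ∧ z ∉ cl S y ∧ A (cl S x) ∧ z ∈ cl S x
      · have e3 : DI S = 1 := by
          apply I1_true
          refine ⟨fun h => hB.2.1 ?_, hB.2.2.1, hB.1⟩
          rw [← cl_eq h]; exact hzx
        have e4 : ll A z S = 1 := by
          apply I1_true
          rw [hcz]; exact hB.2.2.1
        rw [e3, e4, one_mul]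
        exact I1_le_one _
      · have e5 : BI S = 0 := I1_false hB
        rw [e5]
        exact mul_nonneg (I1_nonneg _) c1
    · have e1 : BI S = 0 := I1_false fun h => hzx h.2.2.2
      rw [e1, add_zero]
      by_cases hzy : z ∈ cl S y
      · have e2 : RI S = 0 := I1_false fun h => h.2.2.2.2 hzy
        rw [e2, zero_mul, zero_add]
        have hcz : cl S z = cl S y := (cl_eq (mem_cl.1 hzy)).symm
        by_cases hB : A (cl S x) ∧ z ∉ cl S x ∧ A (cl S y) ∧ z ∈ cl S y
        · have e3 : DI S = 1 := by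
            apply I1_true
            refine ⟨fun h => hB.2.1 ?_, hB.1, hB.2.2.1⟩
            rw [cl_eq h]; exact hzy
          have e4 : ll A z S = 1 := by
            apply I1_true
            rw [hcz]; exact hB.2.2.1
          rw [e3, e4, one_mul]
          exact I1_le_one _
        · have e5 : AI S = 0 := I1_false hB
          rw [e5]
          exact mul_nonneg (I1_nonneg _) c1
      · have e2 : AI S = 0 := I1_false fun h => hzy h.2.2.2
        rw [e2, add_zero]
        apply mul_le_mul_of_nonneg_right _ c1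
        exact I1_mono fun h => ⟨h.1, h.2.1, h.2.2.1⟩
  have hA0 : 0 ≤ Ex p Λ AI := Ex_nonneg h0 h1 fun S _ => I1_nonneg _
  have hB0 : 0 ≤ Ex p Λ BI := Ex_nonneg h0 h1 fun S _ => I1_nonneg _
  have hRL0 : 0 ≤ Ex p Λ (fun S => RI S * ll A z S) :=
    Ex_nonneg h0 h1 fun S _ => mul_nonneg (I1_nonneg _) (ll_nonneg A z S)
  have hHY0 : 0 ≤ HY := Finset.sum_nonneg fun Y _ => Ex_nonneg h0 h1 fun S _ => I1_nonneg _
  have hHX0 : 0 ≤ HX := Finset.sum_nonneg fun Y _ => Ex_nonneg h0 h1 fun S _ => I1_nonneg _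
  have u1 := mul_nonneg hl0 hHY0
  have u2 := mul_nonneg hl0 hHX0
  have u3 : l * R ≤ 2 * Ex p Λ (fun S => RI S * ll A z S) +
      10 * (Ex p Λ AI + Ex p Λ BI) := by linarith
  have u4 : Ex p Λ DI * l ≤ (R + Ex p Λ AI + Ex p Λ BI) * l :=
    mul_le_mul_of_nonneg_right (by linarith) hl0
  have u5 : Ex p Λ AI * l ≤ Ex p Λ AI := mul_le_of_le_one_right hA0 hl1
  have u6 : Ex p Λ BI * l ≤ Ex p Λ BI := mul_le_of_le_one_right hB0 hl1
  have u7 : (R + Ex p Λ AI + Ex p Λ BI) * l = l * R + Ex p Λ AI * l + Ex p Λ BI * l := by ring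
  linarith

/-- **The quasi-triangle inequality** for large clusters. -/
theorem tc {p : ℝ} (h0 : 0 ≤ p) (h1 : p ≤ 1) (Λ : Finset (Sym2 V)) (n : ℕ) (x y z : V) :
    PD p Λ n x y * Ex p Λ (fun S => I1 (n ≤ csz S z)) ≤
      11 * Ex p Λ (fun S => DD n x y S * I1 (n ≤ csz S z)) :=
  tc_gen (A := fun K => n ≤ K.card) (fun _ _ hKL h => h.trans (Finset.card_le_card hKL)) h0 h1 Λ
    x y z

/-- **The quasi-triangle inequality**, for three vertices. -/
theorem tc_tri {p : ℝ} (h0 : 0 ≤ p) (h1 : p ≤ 1) (Λ : Finset (Sym2 V)) (n : ℕ) (x y z : V) :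
    PD p Λ n x y * Ex p Λ (big n z) ≤ 11 * (PD p Λ n x z + PD p Λ n z y) := by
  have e : Ex p Λ (big n z) = Ex p Λ (fun S => I1 (n ≤ csz S z)) := by
    apply Ex_congr
    intro S _
    unfold big I1
    split_ifs <;> rfl
  rw [e]
  refine (tc h0 h1 Λ n x y z).trans ?_
  apply mul_le_mul_of_nonneg_left _ (by norm_num)
  unfold PD
  rw [← Ex_add]
  apply Ex_mono h0 h1
  intro S _
  by_cases hz : n ≤ csz S z
  · rw [I1_true hz, mul_one]
    by_cases hD : ¬ Cn S x y ∧ n ≤ csz S x ∧ n ≤ csz S y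
    · by_cases hxz : Cn S x z
      · have h2 : DD n z y S = 1 := I1_true ⟨fun h => hD.1 (hxz.trans h), hz, hD.2.2⟩
        have h3 : DD n x y S ≤ 1 := I1_le_one _
        have h4 : 0 ≤ DD n x z S := I1_nonneg _
        linarith
      · have h2 : DD n x z S = 1 := I1_true ⟨hxz, hD.2.1, hz⟩
        have h3 : DD n x y S ≤ 1 := I1_le_one _
        have h4 : 0 ≤ DD n z y S := I1_nonneg _
        linarith
    · have h2 : DD n x y S = 0 := I1_false hD
      rw [h2]
      exact add_nonneg (I1_nonneg _) (I1_nonneg _)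
  · rw [I1_false hz, mul_zero]
    exact add_nonneg (I1_nonneg _) (I1_nonneg _)

end Vale.Agent.P151.TC.H918
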